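import Vale.Agent.Lib.P249L.CubeSum

namespace Vale.Agent.Lib.P249L

open Finset

theorem cav_abs_sub_le {k : ℕ} (F G : (Fin k → Bool) → ℝ) (c : ℝ)
    (h : ∀ y, |F y - G y| ≤ c) : |cav F - cav G| ≤ c := by
  have h1 : cav F ≤ cav G + c := by
    have := cav_mono (F := F) (G := fun y => G y + c) (fun y => by
      have := (abs_le.1 (h y)).2; linarith)
    rwa [cav_add, cav_const] at this
  have h2 : cav G ≤ cav F + c := by
    have := cav_mono (F := G) (G := fun y => F y + c) (fun y => by
      have := (abs_le.1 (h y)).1; linarith)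
    rwa [cav_add, cav_const] at this
  rw [abs_le]; constructor <;> linarith

/-- Azuma-Hoeffding on the cube (moment generating function form). -/
theorem azuma {k : ℕ} (G : (Fin k → Bool) → ℝ) (c : Fin k → ℝ)
    (hG : ∀ x i, |G x - G (flip x i)| ≤ c i) (l : ℝ) :
    cav (fun x => Real.exp (l * (G x - cav G))) ≤ Real.exp (l ^ 2 * (∑ i, c i ^ 2) / 8) := by
  induction k with
  | zero =>
    rw [cav_zero _ (fun i => i.elim0), cav_zero G (fun i => i.elim0)]
    simp
  | succ k ih =>
    set G1 : (Fin k → Bool) → ℝ := fun y => G (Fin.cons true y) with hG1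
    set G0 : (Fin k → Bool) → ℝ := fun y => G (Fin.cons false y) with hG0
    set m1 := cav G1 with hm1
    set m0 := cav G0 with hm0
    have hm : cav G = (m1 + m0) / 2 := cav_succ G
    set S := ∑ i : Fin k, c i.succ ^ 2 with hS
    have ih1 : cav (fun y => Real.exp (l * (G1 y - m1))) ≤ Real.exp (l ^ 2 * S / 8) := by
      apply ih G1 (fun i => c i.succ)
      intro y i
      have := hG (Fin.cons true y) i.succ
      rwa [flip_cons_succ] at this
    have ih0 : cav (fun y => Real.exp (l * (G0 y - m0))) ≤ Real.exp (l ^ 2 * S / 8) := by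
      apply ih G0 (fun i => c i.succ)
      intro y i
      have := hG (Fin.cons false y) i.succ
      rwa [flip_cons_succ] at this
    set t := (m1 - m0) / 2 with ht
    have hc0 : |m1 - m0| ≤ c 0 := by
      apply cav_abs_sub_le
      intro y
      have := hG (Fin.cons true y) 0
      rwa [flip_cons_zero] at this
    have e1 : cav (fun y : Fin k → Bool => Real.exp (l * (G (Fin.cons true y) - cav G)))
        = Real.exp (l * t) * cav (fun y => Real.exp (l * (G1 y - m1))) := by
      rw [← cav_mul_left]
      congr 1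
      funext y
      rw [← Real.exp_add, hm]
      congr 1
      simp only [hG1, ht]
      ring
    have e0 : cav (fun y : Fin k → Bool => Real.exp (l * (G (Fin.cons false y) - cav G)))
        = Real.exp (-(l * t)) * cav (fun y => Real.exp (l * (G0 y - m0))) := by
      rw [← cav_mul_left]
      congr 1
      funext y
      rw [← Real.exp_add, hm]
      congr 1
      simp only [hG0, ht]
      ring
    rw [cav_succ, e1, e0]
    have hcosh : (Real.exp (l * t) + Real.exp (-(l * t))) / 2 ≤ Real.exp ((l * t) ^ 2 / 2) := by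
      rw [← Real.cosh_eq]
      exact Real.cosh_le_exp_half_sq _
    have hsq : (l * t) ^ 2 / 2 ≤ l ^ 2 * c 0 ^ 2 / 8 := by
      have h1 : (m1 - m0) ^ 2 ≤ c 0 ^ 2 := by
        have := sq_le_sq' (by linarith [(abs_le.1 hc0).1]) (abs_le.1 hc0).2
        exact this
      have h2 : (l * t) ^ 2 = l ^ 2 * (m1 - m0) ^ 2 / 4 := by rw [ht]; ring
      rw [h2]
      have := mul_le_mul_of_nonneg_left h1 (sq_nonneg l)
      linarith
    have hE := Real.exp_pos (l ^ 2 * S / 8)
    calc (Real.exp (l * t) * cav (fun y => Real.exp (l * (G1 y - m1)))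
          + Real.exp (-(l * t)) * cav (fun y => Real.exp (l * (G0 y - m0)))) / 2
        ≤ (Real.exp (l * t) * Real.exp (l ^ 2 * S / 8)
          + Real.exp (-(l * t)) * Real.exp (l ^ 2 * S / 8)) / 2 := by
          have a1 := mul_le_mul_of_nonneg_left ih1 (Real.exp_pos (l * t)).le
          have a0 := mul_le_mul_of_nonneg_left ih0 (Real.exp_pos (-(l * t))).le
          linarith
      _ = (Real.exp (l * t) + Real.exp (-(l * t))) / 2 * Real.exp (l ^ 2 * S / 8) := by ring
      _ ≤ Real.exp ((l * t) ^ 2 / 2) * Real.exp (l ^ 2 * S / 8) :=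
          mul_le_mul_of_nonneg_right hcosh hE.le
      _ ≤ Real.exp (l ^ 2 * c 0 ^ 2 / 8) * Real.exp (l ^ 2 * S / 8) :=
          mul_le_mul_of_nonneg_right (Real.exp_le_exp.2 hsq) hE.le
      _ = Real.exp (l ^ 2 * (∑ i, c i ^ 2) / 8) := by
          rw [← Real.exp_add, Fin.sum_univ_succ]
          congr 1
          ring

end Vale.Agent.Lib.P249L
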