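import Vale.Agent.Lib.P249L.Defs

namespace Vale.Agent.Lib.P249L

open Finset

theorem flip_flip {k : ℕ} (a : Fin k → Bool) (i : Fin k) : flip (flip a i) i = a := by
  funext j
  by_cases h : j = i
  · subst h
    simp [flip]
  · simp [flip, h]

theorem hammingDist_flip_le {k : ℕ} (a b : Fin k → Bool) (i : Fin k) :
    hammingDist (flip a i) b ≤ hammingDist a b + 1 := by
  have h1 : hammingDist (flip a i) a ≤ 1 := by
    unfold hammingDist
    have : (univ.filter fun j => flip a i j ≠ a j) ⊆ {i} := by
      intro j hj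
      rw [mem_filter] at hj
      rw [mem_singleton]
      by_contra hne
      apply hj.2
      simp [flip, hne]
    calc _ ≤ ({i} : Finset (Fin k)).card := card_le_card this
      _ = 1 := card_singleton i
  have h2 := hammingDist_triangle (flip a i) a b
  omega

/-- Regularisation by infimal convolution with a linear Hamming cost. -/
theorem exists_reg {k : ℕ} (g : (Fin k → Bool) → ℝ) (L s : ℝ) (hL : 0 ≤ L) (hs : 0 < s)
    (hg : ∀ a b, |g a - g b| ≤ L * Real.sqrt (hammingDist a b)) :
    ∃ G : (Fin k → Bool) → ℝ, (∀ a, G a ≤ g a) ∧ (∀ a, g a ≤ G a + s / 2) ∧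
      ∀ a i, |G a - G (flip a i)| ≤ L ^ 2 / (2 * s) := by
  set c : ℝ := L ^ 2 / (2 * s) with hc
  have hc0 : 0 ≤ c := by positivity
  let G : (Fin k → Bool) → ℝ := fun a =>
    univ.inf' univ_nonempty (fun b => g b + c * (hammingDist a b : ℝ))
  have hstep : ∀ a i, G (flip a i) ≤ G a + c := by
    intro a i
    obtain ⟨b, _, hb⟩ := exists_mem_eq_inf' (s := (univ : Finset (Fin k → Bool))) univ_nonempty
      (fun b => g b + c * (hammingDist a b : ℝ))
    have h1 : G (flip a i) ≤ g b + c * (hammingDist (flip a i) b : ℝ) :=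
      inf'_le (fun b => g b + c * (hammingDist (flip a i) b : ℝ)) (mem_univ b)
    have h2 : (hammingDist (flip a i) b : ℝ) ≤ (hammingDist a b : ℝ) + 1 := by
      exact_mod_cast hammingDist_flip_le a b i
    have h3 : G a = g b + c * (hammingDist a b : ℝ) := hb
    have h4 := mul_le_mul_of_nonneg_left h2 hc0
    linarith
  refine ⟨G, ?_, ?_, ?_⟩
  · intro a
    have h1 : G a ≤ g a + c * (hammingDist a a : ℝ) :=
      inf'_le (fun b => g b + c * (hammingDist a b : ℝ)) (mem_univ a)
    simpa using h1
  · intro a
    have : g a - s / 2 ≤ G a := by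
      apply le_inf'
      intro b _
      have h1 := (abs_le.1 (hg a b)).2
      set r := Real.sqrt (hammingDist a b) with hr
      have hr2 : r ^ 2 = (hammingDist a b : ℝ) := Real.sq_sqrt (Nat.cast_nonneg _)
      have h2 : L * r ≤ c * (hammingDist a b : ℝ) + s / 2 := by
        rw [← hr2, hc]
        have h3 : 0 ≤ (L * r - s) ^ 2 / (2 * s) := by positivity
        have h4 : (L * r - s) ^ 2 / (2 * s) = L ^ 2 / (2 * s) * r ^ 2 + s / 2 - L * r := by
          field_simp
          ring
        linarith
      linarith
    linarith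
  · intro a i
    have h1 := hstep a i
    have h2 := hstep (flip a i) i
    rw [flip_flip] at h2
    rw [abs_le]
    constructor <;> linarith

end Vale.Agent.Lib.P249L
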