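import Vale.Agent.Lib.P249L.Moment
import Vale.Agent.Lib.P249L.Reg

namespace Vale.Agent.Lib.P249L

open Finset

theorem three_rpow {x y z p : ℝ} (hx : 0 ≤ x) (hy : 0 ≤ y) (hz : 0 ≤ z) (hp : 0 < p) :
    (x + y + z) ^ p ≤ 3 ^ p * (x ^ p + y ^ p + z ^ p) := by
  have hxp : 0 ≤ x ^ p := Real.rpow_nonneg hx p
  have hyp : 0 ≤ y ^ p := Real.rpow_nonneg hy p
  have hzp : 0 ≤ z ^ p := Real.rpow_nonneg hz p
  have h3 : (0 : ℝ) ≤ 3 ^ p := Real.rpow_nonneg (by norm_num) p
  have key : ∀ M : ℝ, 0 ≤ M → x ≤ M → y ≤ M → z ≤ M → M ^ p ≤ x ^ p + y ^ p + z ^ p →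
      (x + y + z) ^ p ≤ 3 ^ p * (x ^ p + y ^ p + z ^ p) := by
    intro M hM h1 h2 h3' h4
    calc (x + y + z) ^ p ≤ (3 * M) ^ p :=
          Real.rpow_le_rpow (by positivity) (by linarith) hp.le
      _ = 3 ^ p * M ^ p := Real.mul_rpow (by norm_num) hM
      _ ≤ 3 ^ p * (x ^ p + y ^ p + z ^ p) := mul_le_mul_of_nonneg_left h4 h3
  rcases le_total x y with hxy | hxy
  · rcases le_total y z with hyz | hyz
    · exact key z hz (hxy.trans hyz) hyz le_rfl (by linarith)
    · exact key y hy hxy le_rfl hyz (by linarith)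
  · rcases le_total x z with hxz | hxz
    · exact key z hz hxz (hxy.trans hxz) le_rfl (by linarith)
    · exact key x hx le_rfl hxy hxz (by linarith)

/-- Functions on the cube which are Lipschitz for the square root of the Hamming distance
oscillate by at most `k^(1/4)`; here `q = k^(1/4)`. -/
theorem conc {k : ℕ} (g : (Fin k → Bool) → ℝ) (L q : ℝ) (hL : 0 < L) (hq : 0 < q)
    (hqk : q ^ 4 = k) {p : ℝ} (hp : 2 ≤ p)
    (hg : ∀ a b, |g a - g b| ≤ L * Real.sqrt (hammingDist a b)) :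
    cav (fun a => |g a - g (anti a)| ^ p) ≤ (3 * p * L * q) ^ p := by
  have hp0 : 0 < p := by linarith
  have hs : 0 < L * q := by positivity
  obtain ⟨G, h1, h2, h3⟩ := exists_reg g L (L * q) hL.le hs hg
  set m := cav G with hm
  set W := p * L * q with hW
  have hWpos : 0 < W := by positivity
  -- the moment bound
  have hA : cav (fun x => |G x - m| ^ p) ≤ 2 * (W / 4) ^ p * 3 := by
    have hl : 0 < 4 / (L * q) := by positivity
    have := moment_of_lip G (fun _ => L ^ 2 / (2 * (L * q))) h3 hp0 hl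
    have e1 : p / (4 / (L * q)) = W / 4 := by
      rw [hW]; field_simp
    have e2 : (4 / (L * q)) ^ 2 * (∑ _i : Fin k, (L ^ 2 / (2 * (L * q))) ^ 2) / 8 = 1 / 2 := by
      rw [Finset.sum_const, Finset.card_univ, Fintype.card_fin, nsmul_eq_mul, ← hqk]
      field_simp
      ring
    rw [e1, e2] at this
    refine this.trans ?_
    have hexp : Real.exp (1 / 2) ≤ 3 := by
      have h1 : Real.exp (1 / 2) ≤ Real.exp 1 := Real.exp_le_exp.2 (by norm_num)
      have h2 := Real.exp_one_lt_d9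
      linarith
    have : 0 ≤ 2 * (W / 4) ^ p := by positivity
    exact mul_le_mul_of_nonneg_left hexp this
  -- pointwise bound
  have hpt : ∀ a, |g a - g (anti a)| ^ p
      ≤ 3 ^ p * (|G a - m| ^ p + |G (anti a) - m| ^ p + (L * q / 2) ^ p) := by
    intro a
    have hb : |g a - g (anti a)| ≤ |G a - m| + |G (anti a) - m| + L * q / 2 := by
      have a1 := h1 a
      have a2 := h2 a
      have b1 := h1 (anti a)
      have b2 := h2 (anti a)
      have c1 := le_abs_self (G a - m)
      have c2 := neg_abs_le (G a - m)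
      have d1 := le_abs_self (G (anti a) - m)
      have d2 := neg_abs_le (G (anti a) - m)
      rw [abs_le]
      constructor <;> linarith
    calc |g a - g (anti a)| ^ p ≤ (|G a - m| + |G (anti a) - m| + L * q / 2) ^ p :=
          Real.rpow_le_rpow (abs_nonneg _) hb hp0.le
      _ ≤ _ := three_rpow (abs_nonneg _) (abs_nonneg _) (by positivity) hp0
  have hcav : cav (fun a => 3 ^ p * (|G a - m| ^ p + |G (anti a) - m| ^ p + (L * q / 2) ^ p))
      = 3 ^ p * (cav (fun x => |G x - m| ^ p) + cav (fun x => |G x - m| ^ p)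
          + (L * q / 2) ^ p) := by
    rw [cav_mul_left, cav_add, cav_add, cav_const, cav_anti (fun x => |G x - m| ^ p)]
  have h16 : (16 : ℝ) ≤ 4 ^ p := by
    have : (4 : ℝ) ^ (2 : ℝ) ≤ 4 ^ p := Real.rpow_le_rpow_of_exponent_le (by norm_num) hp
    have e : (4 : ℝ) ^ (2 : ℝ) = 16 := by
      rw [show (2 : ℝ) = ((2 : ℕ) : ℝ) by norm_num, Real.rpow_natCast]; norm_num
    linarith
  have hW4 : (W / 4) ^ p ≤ W ^ p / 16 := by
    rw [Real.div_rpow hWpos.le (by norm_num)]
    have hWp : 0 ≤ W ^ p := Real.rpow_nonneg hWpos.le p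
    exact div_le_div_of_nonneg_left hWp (by norm_num) h16
  have hLq : (L * q / 2) ^ p ≤ (W / 4) ^ p := by
    apply Real.rpow_le_rpow (by positivity) _ hp0.le
    rw [hW]
    nlinarith [hs]
  have h3p : (0 : ℝ) ≤ 3 ^ p := Real.rpow_nonneg (by norm_num) p
  calc cav (fun a => |g a - g (anti a)| ^ p)
      ≤ cav (fun a => 3 ^ p * (|G a - m| ^ p + |G (anti a) - m| ^ p + (L * q / 2) ^ p)) :=
        cav_mono hpt
    _ = 3 ^ p * (cav (fun x => |G x - m| ^ p) + cav (fun x => |G x - m| ^ p)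
          + (L * q / 2) ^ p) := hcav
    _ ≤ 3 ^ p * W ^ p := by
        apply mul_le_mul_of_nonneg_left _ h3p
        have hWp : 0 ≤ W ^ p := Real.rpow_nonneg hWpos.le p
        linarith
    _ = (3 * p * L * q) ^ p := by
        rw [← Real.mul_rpow (by norm_num) hWpos.le, hW]
        ring_nf

end Vale.Agent.Lib.P249L
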