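import Vale.Agent.Lib.P249L.Defs

namespace Vale.Agent.Lib.P249L

open Finset

theorem sum_cube_succ {k : ℕ} (F : (Fin (k + 1) → Bool) → ℝ) :
    ∑ x, F x = ∑ y : Fin k → Bool, (F (Fin.cons true y) + F (Fin.cons false y)) := by
  rw [← Equiv.sum_comp (Fin.consEquiv (fun _ : Fin (k + 1) => Bool)) F,
    Fintype.sum_prod_type, Fintype.sum_bool, ← Finset.sum_add_distrib]
  rfl

theorem cav_succ {k : ℕ} (F : (Fin (k + 1) → Bool) → ℝ) :
    cav F = (cav (fun y : Fin k → Bool => F (Fin.cons true y))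
      + cav (fun y : Fin k → Bool => F (Fin.cons false y))) / 2 := by
  unfold cav
  rw [sum_cube_succ, Finset.sum_add_distrib, pow_succ]
  field_simp

theorem cav_zero (F : (Fin 0 → Bool) → ℝ) (x : Fin 0 → Bool) : cav F = F x := by
  unfold cav
  have : ∀ y : Fin 0 → Bool, y = x := fun y => Subsingleton.elim _ _
  rw [Fintype.sum_eq_single x (fun y hy => absurd (this y) hy)]
  simp

theorem cav_const {k : ℕ} (c : ℝ) : cav (fun _ : Fin k → Bool => c) = c := by
  unfold cav
  simp

theorem cav_mono {k : ℕ} {F G : (Fin k → Bool) → ℝ} (h : ∀ x, F x ≤ G x) : cav F ≤ cav G := by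
  unfold cav
  exact div_le_div_of_nonneg_right (Finset.sum_le_sum fun x _ => h x) (by positivity)

theorem cav_add {k : ℕ} (F G : (Fin k → Bool) → ℝ) :
    cav (fun x => F x + G x) = cav F + cav G := by
  unfold cav
  rw [Finset.sum_add_distrib, add_div]

theorem cav_mul_left {k : ℕ} (c : ℝ) (F : (Fin k → Bool) → ℝ) :
    cav (fun x => c * F x) = c * cav F := by
  unfold cav
  rw [← Finset.mul_sum, mul_div_assoc]

theorem cav_sum {k : ℕ} {ι : Type*} (s : Finset ι) (F : ι → (Fin k → Bool) → ℝ) :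
    cav (fun x => ∑ j ∈ s, F j x) = ∑ j ∈ s, cav (F j) := by
  unfold cav
  rw [Finset.sum_comm, Finset.sum_div]

theorem cav_anti {k : ℕ} (F : (Fin k → Bool) → ℝ) : cav (fun x => F (anti x)) = cav F := by
  unfold cav
  have hinv : Function.Involutive (anti : (Fin k → Bool) → (Fin k → Bool)) := by
    intro x
    funext i
    simp [anti]
  rw [← Equiv.sum_comp hinv.toPerm F]
  rfl

theorem sum_eq_cav {k : ℕ} (F : (Fin k → Bool) → ℝ) : ∑ x, F x = 2 ^ k * cav F := by
  unfold cav
  field_simp

theorem flip_cons_zero {k : ℕ} (b : Bool) (y : Fin k → Bool) :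
    flip (Fin.cons b y : Fin (k + 1) → Bool) 0 = Fin.cons (!b) y := by
  funext j
  refine Fin.cases ?_ (fun j => ?_) j
  · simp [flip]
  · simp [flip, Function.update, Fin.succ_ne_zero]

theorem flip_cons_succ {k : ℕ} (b : Bool) (y : Fin k → Bool) (i : Fin k) :
    flip (Fin.cons b y : Fin (k + 1) → Bool) i.succ = Fin.cons b (flip y i) := by
  funext j
  refine Fin.cases ?_ (fun j => ?_) j
  · simp [flip, Function.update, (Fin.succ_ne_zero i).symm]
  · by_cases h : j = i
    · subst h
      simp [flip]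
    · simp [flip, Function.update, h]

end Vale.Agent.Lib.P249L
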