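import Vale.Agent.Lib.P249.Main2

namespace Vale.Agent.Lib.P249L

open Finset

/-- The sign of a bit. -/
def sg (b : Bool) : ℝ := if b then 1 else -1

/-- Average of a function over the cube `{0,1}^k`. -/
noncomputable def cav {k : ℕ} (F : (Fin k → Bool) → ℝ) : ℝ := (∑ x, F x) / 2 ^ k

/-- The Rademacher sum `∑ v_i ε_i`. -/
noncomputable def rad {k : ℕ} (v : Fin k → ℝ) (e : Fin k → Bool) : ℝ := ∑ i, v i * sg (e i)

/-- Flip the bit `i`. -/
def flip {k : ℕ} (x : Fin k → Bool) (i : Fin k) : Fin k → Bool := Function.update x i (!x i)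

/-- The antipodal point of the cube. -/
def anti {k : ℕ} (x : Fin k → Bool) : Fin k → Bool := fun i => !x i

/-- The sign vector of a point of the cube. -/
def sv {k : ℕ} (x : Fin k → Bool) : Fin k → ℝ := fun i => sg (x i)

end Vale.Agent.Lib.P249L
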