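import Vale.Agent.Lib.P249L.Defs

namespace Vale.Agent.Lib.P249L

open Finset Vale.Agent.Lib.P249

/-- Adding points: an `N`-point set is contained in an `n`-point set, `n ≥ N`
(one more coordinate). -/
theorem exists_padding {N m n : ℕ} (x : Fin N → Fin m → ℝ) (hx : Function.Injective x)
    (h : N ≤ n) : ∃ y : Fin n → Fin (m + 1) → ℝ, Function.Injective y ∧
      ∀ (p D : ℝ) (d : ℕ), 0 < p → EmbedsInto p D y d → EmbedsInto p D x d := by
  classical
  let y : Fin n → Fin (m + 1) → ℝ := fun a =>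
    if ha : (a : ℕ) < N then Fin.snoc (α := fun _ => ℝ) (x ⟨a, ha⟩) (0 : ℝ)
    else Fin.snoc (α := fun _ => ℝ) (fun _ => (0 : ℝ)) ((a : ℝ) + 1)
  have ylast1 : ∀ a : Fin n, (a : ℕ) < N → y a (Fin.last m) = 0 := by
    intro a ha
    simp only [y, dif_pos ha, Fin.snoc_last]
  have ylast2 : ∀ a : Fin n, ¬ (a : ℕ) < N → y a (Fin.last m) = (a : ℝ) + 1 := by
    intro a ha
    simp only [y, dif_neg ha, Fin.snoc_last]
  have ycast1 : ∀ (a : Fin n) (ha : (a : ℕ) < N) (j : Fin m),
      y a (Fin.castSucc j) = x ⟨a, ha⟩ j := by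
    intro a ha j
    simp only [y, dif_pos ha, Fin.snoc_castSucc]
  refine ⟨y, ?_, ?_⟩
  · intro a b hab
    have hl : y a (Fin.last m) = y b (Fin.last m) := by rw [hab]
    by_cases ha : (a : ℕ) < N
    · by_cases hb : (b : ℕ) < N
      · have : x ⟨a, ha⟩ = x ⟨b, hb⟩ := by
          funext j
          rw [← ycast1 a ha j, ← ycast1 b hb j, hab]
        have h2 := hx this
        apply Fin.ext
        simpa using congrArg (fun t : Fin N => (t : ℕ)) h2
      · rw [ylast1 a ha, ylast2 b hb] at hl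
        have : (0 : ℝ) ≤ (b : ℝ) := Nat.cast_nonneg _
        linarith
    · by_cases hb : (b : ℕ) < N
      · rw [ylast2 a ha, ylast1 b hb] at hl
        have : (0 : ℝ) ≤ (a : ℝ) := Nat.cast_nonneg _
        linarith
      · rw [ylast2 a ha, ylast2 b hb] at hl
        have h3 : ((a : ℕ) : ℝ) = ((b : ℕ) : ℝ) := by linarith
        apply Fin.ext
        exact_mod_cast h3
  · intro p D d hp hE
    obtain ⟨f, s, hs, hf⟩ := hE
    have key : ∀ a b : Fin N,
        lpNorm p (y (Fin.castLE h a) - y (Fin.castLE h b)) = lpNorm p (x a - x b) := by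
      intro a b
      unfold lpNorm
      congr 1
      rw [Fin.sum_univ_castSucc]
      have ha : ((Fin.castLE h a : Fin n) : ℕ) < N := a.2
      have hb : ((Fin.castLE h b : Fin n) : ℕ) < N := b.2
      have e1 : |(y (Fin.castLE h a) - y (Fin.castLE h b)) (Fin.last m)| ^ p = 0 := by
        rw [Pi.sub_apply, ylast1 _ ha, ylast1 _ hb, sub_zero, abs_zero,
          Real.zero_rpow hp.ne']
      rw [e1, add_zero]
      apply Finset.sum_congr rfl
      intro j _
      rw [Pi.sub_apply, Pi.sub_apply, ycast1 _ ha, ycast1 _ hb]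
      rfl
    refine ⟨fun a => f (Fin.castLE h a), s, hs, ?_⟩
    intro a b
    have := hf (Fin.castLE h a) (Fin.castLE h b)
    rw [key a b] at this
    exact this

end Vale.Agent.Lib.P249L
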