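import Vale.Agent.Lib.P249L.Transfer
import Vale.Agent.Lib.P249L.Padding

namespace Vale.Agent.Lib.P249L

open Finset Vale.Agent.Lib.P249

theorem exists_hard_set (n k : ℕ) (h : 2 ^ k ≤ n) :
    ∃ (m : ℕ) (y : Fin n → Fin m → ℝ), Function.Injective y ∧
      ∀ (p D : ℝ) (d : ℕ), 2 ≤ p → 0 < D → EmbedsInto p D y d →
        (k : ℝ) ^ (p / 4) / (6 * p ^ 2 * D) ^ p ≤ d := by
  obtain ⟨y, hy, hyx⟩ := exists_padding (pts k) (pts_injective k) h
  refine ⟨2 ^ k + 1, y, hy, ?_⟩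
  intro p D d hp hD hemb
  rcases Nat.eq_zero_or_pos k with hk | hk
  · subst hk
    have : ((0 : ℕ) : ℝ) ^ (p / 4) = 0 := by
      rw [Nat.cast_zero]
      exact Real.zero_rpow (by linarith)
    rw [this, zero_div]
    exact Nat.cast_nonneg d
  · exact pts_lower hk hp hD (hyx p D d (by linarith) hemb)

theorem dimRed_lower (p D : ℝ) (hp : 2 ≤ p) (hD : 1 < D) (n k : ℕ) (h : 2 ^ k ≤ n) :
    (k : ℝ) ^ (p / 4) / (6 * p ^ 2 * D) ^ p ≤ dimRed p n D := by
  have hn : 1 ≤ n := le_trans Nat.one_le_two_pow h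
  obtain ⟨m, y, hy, hbound⟩ := exists_hard_set n k h
  have hne : {d : ℕ | ∀ (m : ℕ) (x : Fin n → Fin m → ℝ), Function.Injective x →
      EmbedsInto p D x d}.Nonempty :=
    ⟨⌊dimBound' p D n⌋₊ + 1, fun m x _ => (embedsInto_dimBound' p D hp hD n hn m x).embedsInto⟩
  have hmem := Nat.sInf_mem hne
  exact hbound p D _ hp (by linarith) (hmem m y hy)

end Vale.Agent.Lib.P249L
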