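import Vale.Agent.Lib.P249L.CubeSum

namespace Vale.Agent.Lib.P249L

open Finset

theorem rad_cons {k : ℕ} (v : Fin (k + 1) → ℝ) (b : Bool) (y : Fin k → Bool) :
    rad v (Fin.cons b y) = v 0 * sg b + rad (fun i => v i.succ) y := by
  unfold rad
  rw [Fin.sum_univ_succ]
  simp

theorem cav_rad {k : ℕ} (v : Fin k → ℝ) : cav (rad v) = 0 := by
  induction k with
  | zero =>
    rw [cav_zero _ (fun i => i.elim0)]
    simp [rad]
  | succ k ih =>
    rw [cav_succ]
    simp only [rad_cons]
    rw [cav_add, cav_add, cav_const, cav_const]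
    have := ih (fun i => v i.succ)
    have h2 : cav (fun x => rad (fun i => v i.succ) x) = 0 := this
    rw [h2]
    simp [sg]

theorem cav_rad_sq {k : ℕ} (v : Fin k → ℝ) : cav (fun e => rad v e ^ 2) = ∑ i, v i ^ 2 := by
  induction k with
  | zero =>
    rw [cav_zero _ (fun i => i.elim0)]
    simp [rad]
  | succ k ih =>
    rw [cav_succ]
    simp only [rad_cons]
    have h0 : cav (fun x => rad (fun i => v i.succ) x) = 0 := cav_rad _
    have h2 := ih (fun i => v i.succ)
    have key : ∀ s : ℝ, s ^ 2 = 1 → cav (fun y : Fin k → Bool =>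
        (v 0 * s + rad (fun i => v i.succ) y) ^ 2) = v 0 ^ 2 + ∑ i : Fin k, v i.succ ^ 2 := by
      intro s hs
      have : (fun y : Fin k → Bool => (v 0 * s + rad (fun i => v i.succ) y) ^ 2)
          = fun y => (v 0 ^ 2 + (2 * v 0 * s) * rad (fun i => v i.succ) y)
              + rad (fun i => v i.succ) y ^ 2 := by
        funext y
        have : (v 0 * s) ^ 2 = v 0 ^ 2 := by rw [mul_pow, hs, mul_one]
        nlinarith
      rw [this, cav_add, cav_add, cav_const, cav_mul_left, h0, h2]
      ring
    rw [key (sg true) (by simp [sg]), key (sg false) (by simp [sg]), Fin.sum_univ_succ]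
    ring

theorem rad_flip {k : ℕ} (v : Fin k → ℝ) (e : Fin k → Bool) (i : Fin k) :
    |rad v e - rad v (flip e i)| ≤ 2 * |v i| := by
  unfold rad
  rw [← Finset.sum_sub_distrib]
  rw [Finset.sum_eq_single i]
  · simp only [flip, Function.update_self]
    cases e i <;> simp only [sg] <;> norm_num
    · rw [show -v i - v i = -(2 * v i) by ring, abs_neg, abs_mul]; norm_num
    · rw [show v i + v i = 2 * v i by ring, abs_mul]; norm_num
  · intro j _ hj
    simp [flip, Function.update_of_ne hj]
  · intro h; exact absurd (Finset.mem_univ i) h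

theorem rad_sub {k : ℕ} (v w : Fin k → ℝ) (e : Fin k → Bool) :
    rad v e - rad w e = rad (fun i => v i - w i) e := by
  unfold rad
  rw [← Finset.sum_sub_distrib]
  exact Finset.sum_congr rfl fun i _ => by ring

theorem rad_sv_anti {k : ℕ} (a e : Fin k → Bool) : rad (sv (anti a)) e = - rad (sv a) e := by
  unfold rad
  rw [← Finset.sum_neg_distrib]
  refine Finset.sum_congr rfl fun i _ => ?_
  simp only [sv, anti]
  cases a i <;> cases e i <;> simp [sg]

theorem sum_sv_sq {k : ℕ} (a : Fin k → Bool) : ∑ i, sv a i ^ 2 = k := by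
  have : ∀ i, sv a i ^ 2 = 1 := by
    intro i
    simp only [sv]
    cases a i <;> simp [sg]
  simp [this]

theorem sum_sv_sub_sq {k : ℕ} (a b : Fin k → Bool) :
    ∑ i, (sv a i - sv b i) ^ 2 = 4 * (hammingDist a b : ℝ) := by
  have : ∀ i, (sv a i - sv b i) ^ 2 = if a i ≠ b i then (4 : ℝ) else 0 := by
    intro i
    simp only [sv]
    cases a i <;> cases b i <;> simp [sg] <;> norm_num
  simp only [this, hammingDist]
  rw [Finset.sum_ite]
  simp [mul_comm]

end Vale.Agent.Lib.P249L
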