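import Vale.Agent.Lib.P249L.Moment
import Vale.Agent.Lib.P249L.Rad

namespace Vale.Agent.Lib.P249L

open Finset

/-- Khintchine (upper bound, crude constant). -/
theorem khintchine {k : ℕ} (v : Fin k → ℝ) {p l : ℝ} (hp : 0 < p) (hl : 0 < l) :
    cav (fun e => |rad v e| ^ p) ≤ 2 * (p / l) ^ p * Real.exp (l ^ 2 * (∑ i, v i ^ 2) / 2) := by
  have h := moment_of_lip (rad v) (fun i => 2 * |v i|) (fun x i => rad_flip v x i) hp hl
  rw [cav_rad] at h
  simp only [sub_zero] at h
  have e : l ^ 2 * (∑ i, (2 * |v i|) ^ 2) / 8 = l ^ 2 * (∑ i, v i ^ 2) / 2 := by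
    have : ∑ i, (2 * |v i|) ^ 2 = 4 * ∑ i, v i ^ 2 := by
      rw [Finset.mul_sum]
      refine Finset.sum_congr rfl (fun i _ => ?_)
      rw [mul_pow, sq_abs]
      norm_num
    rw [this]
    ring
  rw [e] at h
  exact h

theorem khin_ham {k : ℕ} (a b : Fin k → Bool) {p : ℝ} (hp : 2 ≤ p) :
    cav (fun e => |rad (sv a) e - rad (sv b) e| ^ p)
      ≤ (4 * p * Real.sqrt (hammingDist a b)) ^ p := by
  have hp0 : 0 < p := by linarith
  rcases Nat.eq_zero_or_pos (hammingDist a b) with h0 | hpos
  · have hab : a = b := hammingDist_eq_zero.mp h0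
    subst hab
    have : (fun e : Fin k → Bool => |rad (sv a) e - rad (sv a) e| ^ p) = fun _ => (0 : ℝ) := by
      funext e
      rw [sub_self, abs_zero, Real.zero_rpow hp0.ne']
    rw [this, cav_const]
    positivity
  · have hh : (0 : ℝ) < (hammingDist a b : ℝ) := by exact_mod_cast hpos
    have hs : 0 < Real.sqrt (hammingDist a b) := Real.sqrt_pos.mpr hh
    have hl : 0 < 1 / Real.sqrt (hammingDist a b) := by positivity
    have h := khintchine (fun i => sv a i - sv b i) hp0 hl
    rw [sum_sv_sub_sq] at h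
    have e1 : (fun e : Fin k → Bool => |rad (sv a) e - rad (sv b) e| ^ p)
        = fun e => |rad (fun i => sv a i - sv b i) e| ^ p := by
      funext e
      rw [rad_sub]
    rw [e1]
    refine h.trans ?_
    have e2 : (1 / Real.sqrt (hammingDist a b)) ^ 2 * (4 * (hammingDist a b : ℝ)) / 2 = 2 := by
      rw [div_pow, Real.sq_sqrt hh.le]
      field_simp
      norm_num
    have e3 : p / (1 / Real.sqrt (hammingDist a b)) = p * Real.sqrt (hammingDist a b) := by
      field_simp
    rw [e2, e3]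
    have e4 : (4 * p * Real.sqrt (hammingDist a b)) ^ p
        = 4 ^ p * (p * Real.sqrt (hammingDist a b)) ^ p := by
      rw [mul_assoc, Real.mul_rpow (by norm_num) (by positivity)]
    rw [e4]
    have h16 : (16 : ℝ) ≤ 4 ^ p := by
      have : (4 : ℝ) ^ (2 : ℝ) ≤ 4 ^ p := Real.rpow_le_rpow_of_exponent_le (by norm_num) hp
      have e5 : (4 : ℝ) ^ (2 : ℝ) = 16 := by
        rw [show (2 : ℝ) = ((2 : ℕ) : ℝ) by norm_num, Real.rpow_natCast]
        norm_num
      linarith
    have hexp : Real.exp 2 ≤ 8 := by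
      have e6 : Real.exp 2 = Real.exp 1 * Real.exp 1 := by
        rw [← Real.exp_add]
        norm_num
      have h1 := Real.exp_one_lt_d9
      have h2 : 0 < Real.exp 1 := Real.exp_pos 1
      rw [e6]
      nlinarith
    have hq : 0 ≤ (p * Real.sqrt (hammingDist a b)) ^ p := by positivity
    calc 2 * (p * Real.sqrt (hammingDist a b)) ^ p * Real.exp 2
        = (2 * Real.exp 2) * (p * Real.sqrt (hammingDist a b)) ^ p := by ring
      _ ≤ 4 ^ p * (p * Real.sqrt (hammingDist a b)) ^ p :=
          mul_le_mul_of_nonneg_right (by linarith) hq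

end Vale.Agent.Lib.P249L
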