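import Vale.Agent.Lib.P249L.Rad

namespace Vale.Agent.Lib.P249L

open Finset

theorem lower_anti {k : ℕ} (a : Fin k → Bool) {p : ℝ} (hp : 2 ≤ p) :
    (2 : ℝ) ^ p * (k : ℝ) ^ (p / 2)
      ≤ cav (fun e => |rad (sv a) e - rad (sv (anti a)) e| ^ p) := by
  have h1 : (fun e => |rad (sv a) e - rad (sv (anti a)) e| ^ p)
      = fun e => (2 : ℝ) ^ p * |rad (sv a) e| ^ p := by
    funext e
    rw [rad_sv_anti]
    have : rad (sv a) e - -rad (sv a) e = 2 * rad (sv a) e := by ring
    rw [this, abs_mul, Real.mul_rpow (abs_nonneg _) (abs_nonneg _)]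
    simp
  rw [h1, cav_mul_left]
  refine mul_le_mul_of_nonneg_left ?_ (by positivity)
  have hJ := Real.rpow_arith_mean_le_arith_mean_rpow (Finset.univ : Finset (Fin k → Bool))
    (fun _ => (1 : ℝ) / 2 ^ k) (fun e => rad (sv a) e ^ 2) (fun _ _ => by positivity)
    (by simp) (fun _ _ => by positivity) (p := p / 2) (by linarith)
  have hL : ∑ e : Fin k → Bool, (1 : ℝ) / 2 ^ k * rad (sv a) e ^ 2 = (k : ℝ) := by
    have := cav_rad_sq (sv a)
    rw [sum_sv_sq] at this
    rw [← this]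
    unfold cav
    rw [Finset.sum_div]
    refine Finset.sum_congr rfl fun e _ => ?_
    ring
  have hR : ∑ e : Fin k → Bool, (1 : ℝ) / 2 ^ k * (rad (sv a) e ^ 2) ^ (p / 2)
      = cav (fun e => |rad (sv a) e| ^ p) := by
    unfold cav
    rw [Finset.sum_div]
    refine Finset.sum_congr rfl fun e _ => ?_
    have : (rad (sv a) e ^ 2) ^ (p / 2) = |rad (sv a) e| ^ p := by
      rw [← sq_abs, ← Real.rpow_natCast, ← Real.rpow_mul (abs_nonneg _)]
      congr 1
      push_cast
      ring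
    rw [this]
    ring
  rw [hL, hR] at hJ
  exact hJ

end Vale.Agent.Lib.P249L
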