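import Vale.Agent.Lib.P249L.Conc
import Vale.Agent.Lib.P249L.Khin
import Vale.Agent.Lib.P249L.Lower

namespace Vale.Agent.Lib.P249L

open Finset

/-- The dimension bound, with the cube as index set and all norms raised to the power `p`. -/
theorem main_cube {k d : ℕ} (hk : 1 ≤ k) {p D s : ℝ} (hp : 2 ≤ p) (hD : 0 < D) (hs : 0 < s)
    (f : (Fin k → Bool) → Fin d → ℝ)
    (h1 : ∀ a b, s ^ p * (∑ e, |rad (sv a) e - rad (sv b) e| ^ p) ≤ ∑ j, |f a j - f b j| ^ p)
    (h2 : ∀ a b, ∑ j, |f a j - f b j| ^ p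
      ≤ (D * s) ^ p * ∑ e, |rad (sv a) e - rad (sv b) e| ^ p) :
    (k : ℝ) ^ (p / 4) / (6 * p ^ 2 * D) ^ p ≤ d := by
  have hp0 : 0 < p := by linarith
  have hkpos : (0 : ℝ) < k := by exact_mod_cast hk
  set T : ℝ := 2 ^ k with hT
  have hTpos : 0 < T := by positivity
  set τ : ℝ := T ^ (1 / p) with hτ
  have hτpos : 0 < τ := Real.rpow_pos_of_pos hTpos _
  have hτp : τ ^ p = T := by
    rw [hτ, ← Real.rpow_mul hTpos.le, one_div, inv_mul_cancel₀ hp0.ne', Real.rpow_one]
  set q : ℝ := (k : ℝ) ^ (1 / 4 : ℝ) with hq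
  have hqpos : 0 < q := Real.rpow_pos_of_pos hkpos _
  have hq4 : q ^ 4 = k := by
    rw [hq, ← Real.rpow_natCast, ← Real.rpow_mul hkpos.le]
    norm_num
  have hqp : q ^ p = (k : ℝ) ^ (p / 4) := by
    rw [hq, ← Real.rpow_mul hkpos.le]
    congr 1
    ring
  have hqpp : (k : ℝ) ^ (p / 2) = q ^ p * q ^ p := by
    rw [hqp, ← Real.rpow_add hkpos]
    congr 1
    ring
  set B : ℝ := 6 * p ^ 2 * D with hB
  have hBpos : 0 < B := by positivity
  set L : ℝ := 4 * p * D * s * τ with hL
  have hLpos : 0 < L := by positivity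
  -- every coordinate is Lipschitz
  have hlip : ∀ j a b, |f a j - f b j| ≤ L * Real.sqrt (hammingDist a b) := by
    intro j a b
    have e1 : |f a j - f b j| ^ p ≤ ∑ j, |f a j - f b j| ^ p :=
      Finset.single_le_sum (f := fun j => |f a j - f b j| ^ p)
        (fun i _ => Real.rpow_nonneg (abs_nonneg _) p) (mem_univ j)
    have e2 := h2 a b
    rw [sum_eq_cav] at e2
    have e3 := khin_ham a b hp
    have hsq : 0 ≤ Real.sqrt (hammingDist a b) := Real.sqrt_nonneg _
    have e4 : (D * s) ^ p * (2 ^ k * cav fun e => |rad (sv a) e - rad (sv b) e| ^ p)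
        ≤ (L * Real.sqrt (hammingDist a b)) ^ p := by
      have : (L * Real.sqrt (hammingDist a b)) ^ p
          = (D * s) ^ p * (T * (4 * p * Real.sqrt (hammingDist a b)) ^ p) := by
        rw [← hτp, ← Real.mul_rpow hτpos.le (by positivity),
          ← Real.mul_rpow (by positivity) (by positivity), hL]
        congr 1
        ring
      rw [this]
      apply mul_le_mul_of_nonneg_left _ (Real.rpow_nonneg (by positivity) p)
      exact mul_le_mul_of_nonneg_left e3 hTpos.le
    have e5 : |f a j - f b j| ^ p ≤ (L * Real.sqrt (hammingDist a b)) ^ p :=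
      e1.trans (e2.trans e4)
    exact (Real.rpow_le_rpow_iff (abs_nonneg _) (by positivity) hp0).1 e5
  -- upper bound
  have hup : cav (fun a => ∑ j, |f a j - f (anti a) j| ^ p) ≤ d * (3 * p * L * q) ^ p := by
    rw [cav_sum]
    calc ∑ j : Fin d, cav (fun a => |f a j - f (anti a) j| ^ p)
        ≤ ∑ _j : Fin d, (3 * p * L * q) ^ p := by
          apply Finset.sum_le_sum
          intro j _
          exact conc (fun a => f a j) L q hLpos hqpos hq4 hp (hlip j)
      _ = d * (3 * p * L * q) ^ p := by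
          rw [Finset.sum_const, Finset.card_univ, Fintype.card_fin, nsmul_eq_mul]
  -- lower bound
  have hlow : s ^ p * (T * (2 ^ p * (k : ℝ) ^ (p / 2)))
      ≤ cav (fun a => ∑ j, |f a j - f (anti a) j| ^ p) := by
    have : ∀ a, s ^ p * (T * (2 ^ p * (k : ℝ) ^ (p / 2))) ≤ ∑ j, |f a j - f (anti a) j| ^ p := by
      intro a
      refine le_trans ?_ (h1 a (anti a))
      rw [sum_eq_cav]
      apply mul_le_mul_of_nonneg_left _ (Real.rpow_nonneg hs.le p)
      exact mul_le_mul_of_nonneg_left (lower_anti a hp) hTpos.le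
    have h := cav_mono this
    rwa [cav_const] at h
  have hexp : (3 * p * L * q) ^ p = 2 ^ p * B ^ p * s ^ p * T * q ^ p := by
    rw [← hτp, ← Real.mul_rpow (by norm_num) hBpos.le, ← Real.mul_rpow (by positivity) hs.le,
      ← Real.mul_rpow (by positivity) hτpos.le, ← Real.mul_rpow (by positivity) hqpos.le, hL, hB]
    congr 1
    ring
  have hmain := hlow.trans hup
  rw [hexp, hqpp] at hmain
  have hsp : 0 < s ^ p := Real.rpow_pos_of_pos hs p
  have h2p : (0 : ℝ) < 2 ^ p := Real.rpow_pos_of_pos (by norm_num) p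
  have hqpos' : 0 < q ^ p := Real.rpow_pos_of_pos hqpos p
  have hBp : 0 < B ^ p := Real.rpow_pos_of_pos hBpos p
  have hfin : q ^ p ≤ d * B ^ p := by
    have hc : 0 < s ^ p * T * 2 ^ p * q ^ p := by positivity
    apply le_of_mul_le_mul_left _ hc
    calc s ^ p * T * 2 ^ p * q ^ p * q ^ p = s ^ p * (T * (2 ^ p * (q ^ p * q ^ p))) := by ring
      _ ≤ d * (2 ^ p * B ^ p * s ^ p * T * q ^ p) := hmain
      _ = s ^ p * T * 2 ^ p * q ^ p * (d * B ^ p) := by ring
  rw [← hqp, div_le_iff₀ hBp]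
  exact hfin

end Vale.Agent.Lib.P249L
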