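import Vale.Agent.Lib.P249L.Azuma

namespace Vale.Agent.Lib.P249L

open Finset

theorem abs_rpow_le_exp {p l : ℝ} (w : ℝ) (hp : 0 < p) (hl : 0 < l) :
    |w| ^ p ≤ (p / l) ^ p * (Real.exp (l * w) + Real.exp (-l * w)) := by
  have hpl : 0 < p / l := div_pos hp hl
  have ht0 : 0 ≤ l * |w| := by positivity
  have h1 : |w| = (p / l) * ((l * |w|) / p) := by
    field_simp
  have h2 : ((l * |w|) / p) ^ p ≤ Real.exp (l * |w|) := by
    have h3 : (l * |w|) / p ≤ Real.exp ((l * |w|) / p) := by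
      linarith [Real.add_one_le_exp ((l * |w|) / p)]
    calc ((l * |w|) / p) ^ p ≤ (Real.exp ((l * |w|) / p)) ^ p :=
          Real.rpow_le_rpow (by positivity) h3 hp.le
      _ = Real.exp (l * |w|) := by
          rw [← Real.exp_mul]
          congr 1
          field_simp
  have h4 : Real.exp (l * |w|) ≤ Real.exp (l * w) + Real.exp (-l * w) := by
    rcases abs_cases w with ⟨h, _⟩ | ⟨h, _⟩
    · rw [h]
      linarith [Real.exp_pos (-l * w)]
    · rw [h]
      have h5 : l * -w = -l * w := by ring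
      rw [h5]
      linarith [Real.exp_pos (l * w)]
  calc |w| ^ p = ((p / l) * ((l * |w|) / p)) ^ p := by rw [← h1]
    _ = (p / l) ^ p * ((l * |w|) / p) ^ p := Real.mul_rpow hpl.le (by positivity)
    _ ≤ (p / l) ^ p * (Real.exp (l * w) + Real.exp (-l * w)) :=
        mul_le_mul_of_nonneg_left (h2.trans h4) (by positivity)

theorem moment_of_lip {k : ℕ} (G : (Fin k → Bool) → ℝ) (c : Fin k → ℝ)
    (hG : ∀ x i, |G x - G (flip x i)| ≤ c i) {p l : ℝ} (hp : 0 < p) (hl : 0 < l) :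
    cav (fun x => |G x - cav G| ^ p)
      ≤ 2 * (p / l) ^ p * Real.exp (l ^ 2 * (∑ i, c i ^ 2) / 8) := by
  have hpl : 0 ≤ (p / l) ^ p := by positivity
  have a1 := azuma G c hG l
  have a2 := azuma G c hG (-l)
  have e2 : (-l) ^ 2 = l ^ 2 := by ring
  rw [e2] at a2
  calc cav (fun x => |G x - cav G| ^ p)
      ≤ cav (fun x => (p / l) ^ p *
          (Real.exp (l * (G x - cav G)) + Real.exp (-l * (G x - cav G)))) :=
        cav_mono (fun x => abs_rpow_le_exp _ hp hl)
    _ = (p / l) ^ p * (cav (fun x => Real.exp (l * (G x - cav G)))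
          + cav (fun x => Real.exp (-l * (G x - cav G)))) := by
        rw [cav_mul_left, cav_add]
    _ ≤ (p / l) ^ p * (Real.exp (l ^ 2 * (∑ i, c i ^ 2) / 8)
          + Real.exp (l ^ 2 * (∑ i, c i ^ 2) / 8)) :=
        mul_le_mul_of_nonneg_left (add_le_add a1 a2) hpl
    _ = 2 * (p / l) ^ p * Real.exp (l ^ 2 * (∑ i, c i ^ 2) / 8) := by ring

end Vale.Agent.Lib.P249L
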