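import Vale.Agent.Lib.P249L.MainCube

namespace Vale.Agent.Lib.P249L

open Finset Vale.Agent.Lib.P249

/-- An enumeration of the cube. -/
noncomputable def cubeEquiv (k : ℕ) : Fin (2 ^ k) ≃ (Fin k → Bool) :=
  (Fintype.equivFinOfCardEq (by simp)).symm

/-- The `2^k` points of `ℓ_p^(2^k)`: the point with index `a` has the coordinates
`∑_i a_i ε_i`, `ε` running through all sign vectors. -/
noncomputable def pts (k : ℕ) : Fin (2 ^ k) → Fin (2 ^ k) → ℝ :=
  fun a e => rad (sv (cubeEquiv k a)) (cubeEquiv k e)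

theorem pts_injective (k : ℕ) : Function.Injective (pts k) := by
  intro a b hab
  have h1 : ∀ e : Fin k → Bool, rad (sv (cubeEquiv k a)) e = rad (sv (cubeEquiv k b)) e := by
    intro e
    have := congrFun hab ((cubeEquiv k).symm e)
    simpa [pts] using this
  have h2 : ∀ e : Fin k → Bool,
      rad (fun i => sv (cubeEquiv k a) i - sv (cubeEquiv k b) i) e = 0 := by
    intro e
    rw [← rad_sub, h1 e, sub_self]
  have h3 := cav_rad_sq (fun i => sv (cubeEquiv k a) i - sv (cubeEquiv k b) i)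
  have h4 : cav (fun e => rad (fun i => sv (cubeEquiv k a) i - sv (cubeEquiv k b) i) e ^ 2) = 0 := by
    simp [cav, h2]
  rw [h4, sum_sv_sub_sq] at h3
  have h5 : (hammingDist (cubeEquiv k a) (cubeEquiv k b) : ℝ) = 0 := by linarith
  have h6 : hammingDist (cubeEquiv k a) (cubeEquiv k b) = 0 := by exact_mod_cast h5
  exact (cubeEquiv k).injective (hammingDist_eq_zero.mp h6)

theorem lpNorm_rpow {p : ℝ} (hp : 0 < p) {d : ℕ} (y : Fin d → ℝ) :
    lpNorm p y ^ p = ∑ j, |y j| ^ p := by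
  have h0 : 0 ≤ ∑ j, |y j| ^ p := Finset.sum_nonneg (fun j _ => Real.rpow_nonneg (abs_nonneg _) _)
  unfold lpNorm
  rw [← Real.rpow_mul h0, one_div, inv_mul_cancel₀ hp.ne', Real.rpow_one]

theorem lpNorm_nonneg' (p : ℝ) {d : ℕ} (y : Fin d → ℝ) : 0 ≤ lpNorm p y := by
  unfold lpNorm
  exact Real.rpow_nonneg (Finset.sum_nonneg (fun j _ => Real.rpow_nonneg (abs_nonneg _) _)) _

theorem sum_pts {k : ℕ} (p : ℝ) (a b : Fin k → Bool) :
    ∑ e', |(pts k ((cubeEquiv k).symm a) - pts k ((cubeEquiv k).symm b)) e'| ^ p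
      = ∑ e, |rad (sv a) e - rad (sv b) e| ^ p := by
  rw [← Equiv.sum_comp (cubeEquiv k) (fun e => |rad (sv a) e - rad (sv b) e| ^ p)]
  simp [pts]

theorem pts_lower {k d : ℕ} (hk : 1 ≤ k) {p D : ℝ} (hp : 2 ≤ p) (hD : 0 < D)
    (h : EmbedsInto p D (pts k) d) : (k : ℝ) ^ (p / 4) / (6 * p ^ 2 * D) ^ p ≤ d := by
  obtain ⟨f, s, hs, h⟩ := h
  have hp0 : 0 < p := by linarith
  refine main_cube hk hp hD hs (fun a => f ((cubeEquiv k).symm a)) ?_ ?_
  · intro a b
    have h1 := (h ((cubeEquiv k).symm a) ((cubeEquiv k).symm b)).1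
    have h2 := Real.rpow_le_rpow (mul_nonneg hs.le (lpNorm_nonneg' p _)) h1 hp0.le
    rw [Real.mul_rpow hs.le (lpNorm_nonneg' p _), lpNorm_rpow hp0, lpNorm_rpow hp0, sum_pts] at h2
    simpa using h2
  · intro a b
    have h1 := (h ((cubeEquiv k).symm a) ((cubeEquiv k).symm b)).2
    have h2 := Real.rpow_le_rpow (lpNorm_nonneg' p _) h1 hp0.le
    rw [Real.mul_rpow (mul_nonneg hD.le hs.le) (lpNorm_nonneg' p _), lpNorm_rpow hp0,
      lpNorm_rpow hp0, sum_pts] at h2
    simpa using h2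

end Vale.Agent.Lib.P249L
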